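import Vale.Agent.P329.H157.Lang

namespace Vale.Agent.P329.H962

open H259 (pw pw_zero pw_succ pw_one pw_add pw_succ' pw_mul pw_length)
open Filter

variable {α A B : Type} {p : ℕ}

/-! Histories `X : List α`, NEWEST LETTER FIRST; `w X` = value at the prefix `X`. -/

/-- running sum over the nonempty suffixes (= prefixes of the text) -/
def N (f : List α → ZMod p) : List α → ZMod p
  | [] => 0
  | a :: X => N f X + f (a :: X)

/-- one mark -/
def TL (h F : List α → ZMod p) : List α → ZMod p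
  | [] => 0
  | a :: X => TL h F X + h (a :: X) * F X

/-- finitely many residuals -/
def FS (f : List α → A) : Prop :=
  (Set.range fun X : List α => fun Y : List α => f (Y ++ X)).Finite

/-- no cut of `w` strictly inside or at the end of `V`, read after `X` -/
def Unc (w : List α → ZMod p) (V X : List α) : Prop :=
  ∀ B, B <:+ V → B ≠ [] → w (B ++ X) = 0

/-- aperiodic on uncut stretches -/
def AP (w : List α → ZMod p) (G : List α → A) : Prop :=
  ∀ v, ∃ n0, ∀ n, n0 ≤ n → ∀ X Y, Unc w (pw v n) X →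
    G (Y ++ (pw v n ++ X)) = G (Y ++ (pw v (n + 1) ++ X))

/-- number of cuts in `S` read after `c` -/
def nc (w : List α → ZMod p) : List α → List α → ℕ
  | [], _ => 0
  | a :: S, c => nc w S c + if w (a :: (S ++ c)) = 0 then 0 else 1

/-- memory `n`: after a cut followed by `n` cuts, the older text is forgotten -/
def Mem (w : List α → ZMod p) (n : ℕ) (G : List α → A) : Prop :=
  ∀ c c' S, w c ≠ 0 → w c' ≠ 0 → n ≤ nc w S c → G (S ++ c) = G (S ++ c')

/-- the local functions of the stage `w` -/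
def Lc (w : List α → ZMod p) (G : List α → A) : Prop :=
  FS G ∧ AP w G ∧ ∃ n, Mem w n G

/-- rooted: after a cut only the newer text matters -/
def Rt (w : List α → ZMod p) (f : List α → A) : Prop :=
  ∀ c c' r, w c ≠ 0 → w c' ≠ 0 → r ≠ [] → f (r ++ c) = f (r ++ c')

def CH (w h : List α → ZMod p) : Prop :=
  ∀ c v j, w c ≠ 0 → 2 ≤ j → w (pw v j ++ c) ≠ 0 →
    (∀ i, 1 ≤ i → i < j → w (pw v i ++ c) = 0) → N h (pw v j ++ c) ≠ N h c

structure Stg (w : List α → ZMod p) : Prop where
  nil : w [] = 0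
  fs : FS w
  ap : AP w w
  rt : Rt w w
  ch : CH w w

structure Unt (w h : List α → ZMod p) : Prop where
  sup : ∀ X, h X ≠ 0 → w X ≠ 0
  fs : FS h
  ap : AP w h
  rt : Rt w h
  ch : CH w h

/-- the return stage: cut when the walk of `h` arrives at `ρ` with a nonzero step -/
def rc (h : List α → ZMod p) (ρ : ZMod p) : List α → ZMod p :=
  fun X => if N h X = ρ then h X else 0

def iter : (List α → ZMod p) → List (ZMod p) → (List α → ZMod p)
  | w, [] => w
  | w, ρ :: ρs => iter (rc w ρ) ρs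

def Cap (G : List α → ZMod p) : Prop := ∀ a, SH 1 {u : List α | G u.reverse = a}

/-! ### splitting -/

def Bf (w u : List α → ZMod p) (ρ : ZMod p) : List α → ZMod p
  | [] => 0
  | a :: X => if w (a :: X) = 0 then Bf w u ρ X else
      if N w (a :: X) = ρ then 0 else
      if N w X = ρ then u (a :: X) else Bf w u ρ X

def phi (w u : List α → ZMod p) (ρ : ZMod p) : List α → ZMod p
  | [] => 0
  | a :: X => if rc w ρ (a :: X) = 0 then 0 else Bf w u ρ X - u (a :: X)

/-! ### regrouping -/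

def rgG (w f : List α → ZMod p) : List α → ZMod p
  | [] => 0
  | a :: X => if w (a :: X) = 0 then rgG w f X + f (a :: X) else 0

def rgg (w f : List α → ZMod p) : List α → ZMod p
  | [] => 0
  | a :: X => if w (a :: X) = 0 then 0 else rgG w f X + f (a :: X)

/-! ### sequences and zones -/

def sh (z : ℕ → B) : ℕ → B := fun i => z (i + 1)

/-- window functions -/
def Wn (J : ℕ) (ψ : (ℕ → B) → A) : Prop := ∀ z z', (∀ i < J, z i = z' i) → ψ z = ψ z'

/-- minimal closed shift invariant set (every orbit is dense) -/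
structure Mn (M : Set (ℕ → B)) : Prop where
  ne : M.Nonempty
  cl : ∀ z, (∀ J, ∃ m ∈ M, ∀ i < J, m i = z i) → z ∈ M
  inv : ∀ m ∈ M, sh m ∈ M
  mn : ∀ m ∈ M, ∀ m' ∈ M, ∀ J, ∃ k, ∀ i < J, m (k + i) = m' i

/-- coboundary on `M` -/
def Cob (M : Set (ℕ → B)) (τ : (ℕ → B) → ZMod p) : Prop :=
  ∃ ψ : (ℕ → B) → ZMod p, (∃ J, Wn J ψ) ∧ ∀ m ∈ M, τ m = ψ m - ψ (sh m)

def Near (β : List α → B) (z : ℕ → B) (J : ℕ) (X : List α) : Prop :=
  J ≤ X.length ∧ ∀ i < J, β (X.drop i) = z i

/-- `β` = enrichment -/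
structure Sys (w : List α → ZMod p) (β : List α → B) (wB : B → ZMod p) (lB : B → Option α) :
    Prop where
  w_eq : ∀ X, w X = wB (β X)
  l_eq : ∀ X, X.head? = lB (β X)
  lc : Lc w β

/-- infinitely covered near `M` -/
def Cov (w : List α → ZMod p) (β : List α → B) (M : Set (ℕ → B)) : Prop :=
  ∀ ρs, ∃ J, ∀ m ∈ M, ∀ X, Near β m J X → ∃ i < J, iter w ρs (X.drop i) ≠ 0

structure Zn (w : List α → ZMod p) (β : List α → B) (F : Filter (List α)) (M : Set (ℕ → B)) :
    Prop where
  nb : F.NeBot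
  mn : Mn M
  z : ∃ z : ℕ → B, (∀ J, ∀ᶠ X in F, Near β z J X) ∧
    ∀ m ∈ M, ∀ J, ∃ k, ∀ i < J, z (k + i) = m i
  cov : Cov w β M

/-- the refined enrichment -/
def ext (β : List α → B) (h : List α → ZMod p) : List α → B × ZMod p × ZMod p :=
  fun X => (β X, N h X, h X)

def pr1 (z : ℕ → B × ZMod p × ZMod p) : ℕ → B := fun i => (z i).1

def wE (ρ : ZMod p) : B × ZMod p × ZMod p → ZMod p := fun b => if b.2.1 = ρ then b.2.2 else 0

/-- the main predicate -/
def RR (w : List α → ZMod p) : List (Filter (List α)) → (List α → ZMod p) → Prop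
  | [], G => Cap G
  | F :: Fs, G => ∃ U ∈ F, ∀ k, Lc w k → (∀ X, k X ≠ 0 → X ∈ U) → RR w Fs (TL k G)

/-- strand -/
def strd (F : Filter (List α)) (h : List α → ZMod p) (s : ZMod p) : Filter (List α) :=
  F ⊓ 𝓟 {X | N h X = s}

/-- statuses -/
def Fl (g : List α → ZMod p) (β : List α → B) (M : Set (ℕ → B)) : Prop :=
  ∃ J, ∀ m ∈ M, ∀ X, Near β m J X → g X = 0

def Gd (wB : B → ZMod p) (M : Set (ℕ → B)) : Prop := ¬ Cob M fun z => wB (z 0)

/-- the value of a tracked function on a sequence -/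
def Rep (β : List α → B) (M : Set (ℕ → B)) (f : List α → A) (F : (ℕ → B) → A) : Prop :=
  ∃ J, Wn J F ∧ ∀ m ∈ M, ∀ X, Near β m J X → f X = F m

end Vale.Agent.P329.H962
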